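import Vale.Agent.P192.H626.Stmt

/-!
# Periodic groups acting on acyclic complexes
-/

namespace Vale.Agent.Results.P192.AcyclicComplexes

open Vale.Agent.P192.H626

/-- Let `Γ` be a finitely presented periodic group, `X` an acyclic complex of dimension at most
two with an action of `G`, `f : Γ → G` a homomorphism, `H = f(Γ)`.
(1) There are finitely many cells such that if the orders of the intersections of a finite
subgroup `P` of `H` with the stabilisers of their `H`-translates divide `M`, then the
order of `P` divides `M ^ 3`.
(2) If for each cell the finite `p`-subgroups of `H` fixing it have bounded order, then so have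
the finite `p`-subgroups of `H`; the same for all finite subgroups; for `p = 2` all `2`-subgroups
of `H` are finite of bounded order.
(3) `H` is finite if it meets the stabilisers of the cells in finite `2`-groups, or if `X` is
regular, for each cell the finite subgroups of `H` fixing it have bounded order and no element
of `H` of order `9` or of prime order at least `5` fixes a cell.
(4) If `H` meets the stabilisers in finite groups, then a finite set of nontrivial elements meets
all nontrivial normal subgroups of `H`; `H` is finite if it is residually finite.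
(5) `H` is finite if it meets the stabilisers in finite groups, `X` is regular and some `x` in `H`
with `x ^ 2 = 1` fixes no two-cell.
(6) A periodic group acting on an acyclic complex of dimension at most `n` is finite if the orders
of its finite subgroups fixing a cell divide a fixed power of two, or if the complex is regular,
these orders are bounded and no element of order `9` or of prime order at least `5` fixes a cell.
(7) Let `H` be an infinite periodic group acting with finite vertex stabilisers on a regular
acyclic complex of finite dimension. If the finite subgroups of `H` have bounded order then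
each `x` in `H` with `x ^ 2 = 1` fixes a two-cell, and each finite `2`-subgroup of `H` whose
normaliser in `H` is infinite lies in a finite `2`-subgroup `S` fixing a two-cell whose
normaliser `N` in `H` is infinite and such that `N/S` has no involution.
(8) A periodic group is finite if its finite subgroups have bounded order and it has no element
of order `9` or of prime order at least `5`. -/
theorem result :
    (∀ (Γ G : Type) [Group Γ] [Group G] (X : AcyclicComplex G 2),
      Group.IsFinitelyPresented Γ → (∀ x : Γ, IsOfFinOrder x) → ∀ f : Γ →* G,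
      (∃ T : Finset (Σ i, X.cell i), ∀ P : Subgroup G, Finite P → P ≤ f.range → ∀ M : ℕ,
        (∀ c ∈ T, ∀ g ∈ f.range, Nat.card (X.stab P (g • c.2)) ∣ M) → Nat.card P ∣ M ^ 3) ∧
      (∀ p : ℕ, (∀ i (ω : X.cell i), BOp p (X.stab f.range ω)) → BOp p f.range) ∧
      ((∀ i (ω : X.cell i), BO (X.stab f.range ω)) → BO f.range) ∧
      ((∀ i (ω : X.cell i), BOp 2 (X.stab f.range ω)) →
        ∃ B : ℕ, ∀ P : Subgroup G, IsPGroup 2 P → P ≤ f.range → Finite P ∧ Nat.card P ≤ B) ∧
      ((∀ i (ω : X.cell i), ∃ k : ℕ, Nat.card (X.stab f.range ω) = 2 ^ k) →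
        Finite f.range) ∧
      (X.Regular → (∀ i (ω : X.cell i), BO (X.stab f.range ω)) → X.NoBad f.range →
        Finite f.range) ∧
      ((∀ i (ω : X.cell i), Finite (X.stab f.range ω)) →
        (∃ E : Finset f.range, 1 ∉ E ∧
          ∀ N : Subgroup f.range, N.Normal → N ≠ ⊥ → ∃ x ∈ E, x ∈ N) ∧
        (Group.ResiduallyFinite f.range → Finite f.range) ∧
        (X.Regular → (∃ x ∈ f.range, x * x = 1 ∧ ∀ ω : X.cell 2, x • ω ≠ ω) →
          Finite f.range))) ∧
    (∀ (G : Type) [Group G] (n : ℕ) (X : AcyclicComplex G n),
      (∀ (k : ℕ) (H : Subgroup G), (∀ x ∈ H, IsOfFinOrder x) →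
        (∀ P : Subgroup G, Finite P → ∀ i (ω : X.cell i), P ≤ X.stab H ω →
          Nat.card P ∣ 2 ^ k) → Finite H) ∧
      (X.Regular → ∀ (B : ℕ) (H : Subgroup G), (∀ x ∈ H, IsOfFinOrder x) →
        (∀ P : Subgroup G, Finite P → ∀ i (ω : X.cell i), P ≤ X.stab H ω → Nat.card P ≤ B) →
        X.NoBad H → Finite H) ∧
      (X.Regular → ∀ H : Subgroup G, (∀ x ∈ H, IsOfFinOrder x) → Infinite H →
        (∀ v : X.cell 0, Finite (X.stab H v)) → BO H →
        (∀ x ∈ H, x * x = 1 → ∃ ω : X.cell 2, x • ω = ω) ∧
        ∀ S₀ : Subgroup G, S₀ ≤ H → Finite S₀ → IsPGroup 2 S₀ →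
          Infinite (H ⊓ Subgroup.normalizer (S₀ : Set G) : Subgroup G) →
          ∃ S : Subgroup G, S₀ ≤ S ∧ S ≤ H ∧ Finite S ∧ IsPGroup 2 S ∧
            Infinite (H ⊓ Subgroup.normalizer (S : Set G) : Subgroup G) ∧
            (∀ x ∈ H ⊓ Subgroup.normalizer (S : Set G), x * x ∈ S → x ∈ S) ∧
            ∃ ω : X.cell 2, S ≤ MulAction.stabilizer G ω)) ∧
    (∀ (G : Type) [Group G], (∀ g : G, IsOfFinOrder g) → BO (⊤ : Subgroup G) →
      (∀ x : G, ¬ Bad x) → Finite G) :=
  ⟨fun _ _ _ _ X hfp hper f =>
    ⟨exists_cells X hfp hper f, st_bop X hfp hper f, st_bo X hfp hper f, st_two X hfp hper f,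
      fun h2 => finite_of_acyclic_two X hfp hper f h2,
      fun hX hB h => st_bad X hfp hper f hX hB h,
      fun hst => ⟨exists_finite_set X hfp hper f hst,
        fun hrf => finite_of_residuallyFinite X hfp hper f hst hrf,
        fun hX hx => finite_of_involution X hX hfp hper f hst hx⟩⟩,
    fun _ _ _ X => ⟨fun k H hH hk => finite_of_acyclic X k H hH
        fun P h1 h2 i ω h3 => hk P h1 i ω (le_inf h2 h3),
      fun hX B H hH hB h => finite_of_acyclic_orders X hX H hH B
        (fun P h1 h2 i ω h3 => hB P h1 i ω (le_inf h2 h3)) h,
      fun hX H hper hinf hst ⟨B, hB⟩ =>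
        ⟨fun x hx hxx => involution_fixes X hX H hper hst B hB hinf x hx hxx,
          fun S₀ h0 h1 h2 h3 => exists_face X hX H hper hst B hB S₀ h0 h1 h2 h3⟩⟩,
    fun _ _ ht ⟨B, hB⟩ h => finite_of_orders ht B (fun P hP => hB P hP le_top) h⟩

end Vale.Agent.Results.P192.AcyclicComplexes
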