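import Vale.Agent.P192.H382.Pdef

/-!
# P192: groups of nonpositive relative `p`-Euler characteristic

A datum `D` consists of `n` groups `D.A j`, a number `m` and `r` pairs `D.α k`, `D.β k` of
homomorphisms of finite groups `D.C k` to the free product of the groups `D.A j` and of the free
group of rank `m`; `D.L` is this free product with `D.α k c` and `D.β k c` identified (for
instance the fundamental group of a finite graph of groups with finite edge groups `D.C k`). Let
`π` be a homomorphism from `D.L` to a finite group, and `G = Quo w q` the quotient of `D.L` by the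
relators `w i ^ q i`, where `q i` is the order of `π (w i)` times a power of `p`. The number
`D.e π` is `n + m - 1 - ∑ 1 / |π (A j)| - ∑ (1 - 1 / |C k|)`. If the sum of the `1 / q i` is at
most `D.e π`, a subgroup of finite index of `G` maps onto `ℤ` (finitely many relators), and no
finitely presented periodic group maps onto `G` or onto a subgroup of finite index of `G` (any
number of relators, `D.A j` finitely generated).
-/

namespace Vale.Agent.Results.P192.PDeficiency

open Vale.Agent.P192.H382

/-- **Relative `p`-deficiency at least one.** -/
theorem result (p : ℕ) [Fact p.Prime] :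
    (∀ (D : Dat) (Q : Type) [Group Q] [Finite Q] (π : D.L →* Q),
      -- (1) finitely many relators
      (∀ (I : Type) [Fintype I] (w : I → D.L) (q : I → ℕ), Expo p π w q →
        ∑ i, (1 : ℝ) / q i ≤ D.e π → NormZ (Quo w q)) ∧
      -- (2) any number of relators
      ((∀ j, Group.FG (D.A j)) → ∀ (I : Type) (w : I → D.L) (q : I → ℕ), Expo p π w q →
        SumLe q (D.e π) → Infinite (Quo w q) ∧ NoCover (Quo w q)) ∧
      -- (3) periodic examples
      ((∀ j, Group.FG (D.A j)) → 0 < D.e π →
        ∃ q : D.L → ℕ, Expo p π (fun g => g) q ∧ SumLe q (D.e π) ∧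
          ∀ x : Quo (fun g : D.L => g) q, IsOfFinOrder x)) ∧
    -- (4) groups of `p`-deficiency at least one
    (∀ (m : ℕ) (I : Type) (w : I → FreeGroup (Fin m)) (s : I → ℕ),
      SumLe (fun i => p ^ s i) (m - 1) →
        NoCover (PresentedGroup (Set.range fun i => w i ^ p ^ s i))) := by
  refine ⟨fun D Q _ _ π => ⟨?_, ?_, ?_⟩, ?_⟩
  · intro I _ w q hq hsum
    exact part1 D π w q hq hsum
  · intro hA I w q hq hsum
    exact ⟨part2' D π hA w q hq hsum, part2'' D π hA w q hq hsum⟩
  · intro hA h
    exact part3 D π hA h
  · intro m I w s hsum
    exact pdef m w s hsum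

end Vale.Agent.Results.P192.PDeficiency
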